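import Crest.Agent.N76.G.Defs
import Crest.Agent.R070.Cs_145

/-! # Row 76: the coherent state transform is an isometry; synthesis, localisation, towers
(helper98). -/

set_option autoImplicit false

open MeasureTheory Set Metric
open scoped ENNReal RealInnerProductSpace ComplexConjugate FourierTransform

namespace Crest.Agent.N76.G

open Crest.Agent.N76.Red (V)

variable {d : ℕ}

namespace Iso

lemma norm_gamF (a t : ℝ) (β : Ph d) (ξ : V d) :
    ‖gamF a t β ξ‖ =
      (2 * a ^ 2) ^ ((d : ℝ) / 4) * Real.exp (-Real.pi * a ^ 2 * ‖ξ - β.2‖ ^ 2) := by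
  unfold gamF
  rw [norm_mul, Complex.norm_real, Real.norm_of_nonneg (by positivity), Complex.norm_exp]
  congr 2
  simp [pow_two]

lemma sq_norm_gamF (a t : ℝ) (β : Ph d) (ξ : V d) :
    ‖gamF a t β ξ‖ ^ 2 =
      (2 * a ^ 2) ^ ((d : ℝ) / 2) * Real.exp (-2 * Real.pi * a ^ 2 * ‖ξ - β.2‖ ^ 2) := by
  rw [norm_gamF, mul_pow, ← Real.rpow_natCast, ← Real.rpow_mul (by positivity), ← Real.exp_nat_mul]
  congr 2
  · push_cast; ring
  · push_cast; ring

lemma conj_gamF (a t : ℝ) (y ζ ξ : V d) :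
    conj (gamF a t (y, ζ) ξ) =
      Complex.exp (((2 * Real.pi * ⟪ξ, y⟫ : ℝ) : ℂ) * Complex.I) * conj (gamF a t (0, ζ) ξ) := by
  unfold gamF
  simp only [map_mul, Complex.conj_ofReal, ← Complex.exp_conj, inner_zero_left]
  rw [mul_left_comm, ← Complex.exp_add, real_inner_comm]
  congr 2
  simp only [map_sub, map_mul, map_neg, map_add, map_pow, Complex.conj_ofReal, Complex.conj_I,
    map_ofNat]
  push_cast
  ring

lemma continuous_gamF (a t : ℝ) (β : Ph d) : Continuous (gamF a t β) := by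
  unfold gamF
  fun_prop

lemma integrable_gauss {b : ℝ} (hb : 0 < b) :
    Integrable (fun v : V d => Real.exp (-b * ‖v‖ ^ 2)) := by
  apply Integrable.of_integral_ne_zero
  rw [GaussianFourier.integral_rexp_neg_mul_sq_norm hb]
  have := Real.pi_pos
  positivity

lemma integral_gauss {b : ℝ} (hb : 0 < b) :
    ∫ v : V d, Real.exp (-b * ‖v‖ ^ 2) = (Real.pi / b) ^ ((d : ℝ) / 2) := by
  rw [GaussianFourier.integral_rexp_neg_mul_sq_norm hb]
  simp

lemma integral_norm_sq_L2 {α : Type*} [MeasurableSpace α] {μ : Measure α} (h : Lp ℂ 2 μ) :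
    ∫ x, ‖h x‖ ^ 2 ∂μ = ‖h‖ ^ 2 := by
  have h1 : (inner ℂ h h : ℂ) = ∫ x, inner ℂ (h x) (h x) ∂μ := L2.inner_def h h
  simp only [inner_self_eq_norm_sq_to_K] at h1
  have h2 : ((‖h‖ ^ 2 : ℝ) : ℂ) = ((∫ x, ‖h x‖ ^ 2 ∂μ : ℝ) : ℂ) := by
    rw [← integral_complex_ofReal]
    simpa using h1
  exact_mod_cast h2.symm

lemma integrable_norm_sq_L2 {α : Type*} [MeasurableSpace α] {μ : Measure α} (h : Lp ℂ 2 μ) :
    Integrable (fun x => ‖h x‖ ^ 2) μ :=
  (memLp_two_iff_integrable_sq_norm (Lp.aestronglyMeasurable h)).1 (Lp.memLp h)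

lemma memLp_gauss {b : ℝ} (hb : 0 < b) (ζ : V d) :
    MemLp (fun ξ : V d => Real.exp (-b * ‖ξ - ζ‖ ^ 2)) 2 volume := by
  rw [memLp_two_iff_integrable_sq_norm (Continuous.aestronglyMeasurable (by fun_prop))]
  have := (integrable_gauss (d := d) (b := 2 * b) (by positivity)).comp_sub_right ζ
  refine this.congr (Filter.Eventually.of_forall fun ξ => ?_)
  simp only [Real.norm_eq_abs, sq_abs]
  rw [← Real.exp_nat_mul]
  congr 1
  push_cast; ring

lemma memLp_gamF' {a : ℝ} (ha : 0 < a) (t : ℝ) (β : Ph d) : MemLp (gamF a t β) 2 volume := by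
  have hpi := Real.pi_pos
  have := (memLp_gauss (d := d) (b := Real.pi * a ^ 2) (by positivity) β.2).const_mul
    ((2 * a ^ 2) ^ ((d : ℝ) / 4))
  refine this.of_le (continuous_gamF a t β).aestronglyMeasurable
    (Filter.Eventually.of_forall fun ξ => ?_)
  rw [norm_gamF, Real.norm_of_nonneg (by positivity)]
  exact le_of_eq (by congr 2; ring)

lemma co_eq' {a : ℝ} (ha : 0 < a) (t : ℝ) (h : L2 d) (β : Ph d) :
    co a t h β = ∫ ξ, conj (gamF a t β ξ) * h ξ := by
  unfold co gam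
  rw [dif_pos (memLp_gamF' ha t β), L2.inner_def]
  refine integral_congr_ae ?_
  filter_upwards [(memLp_gamF' ha t β).coeFn_toLp] with ξ hξ
  rw [hξ, RCLike.inner_apply, mul_comm]

end Iso

open Iso

theorem integral_co_sq_fst {a : ℝ} (ha : 0 < a) (t : ℝ) (h : L2 d) (ζ : V d) :
    Integrable (fun y => ‖co a t h (y, ζ)‖ ^ 2) ∧
    ∫ y, ‖co a t h (y, ζ)‖ ^ 2 =
      (2 * a ^ 2) ^ ((d : ℝ) / 2) *
        ∫ ξ, Real.exp (-2 * Real.pi * a ^ 2 * ‖ξ - ζ‖ ^ 2) * ‖h ξ‖ ^ 2 := by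
  set F : V d → ℂ := fun ξ => conj (gamF a t (0, ζ) ξ) * h ξ with hF
  have hg2 : MemLp (fun ξ => conj (gamF a t (0, ζ) ξ)) 2 (volume : Measure (V d)) :=
    (memLp_gamF' ha t (0, ζ)).star
  have hF1 : Integrable F := hg2.integrable_mul (Lp.memLp h)
  have hF2 : MemLp F 2 volume := by
    refine ((Lp.memLp h).const_mul ((((2 * a ^ 2) ^ ((d : ℝ) / 4) : ℝ) : ℂ))).of_le
      hF1.aestronglyMeasurable (Filter.Eventually.of_forall fun ξ => ?_)
    simp only [hF, norm_mul, RCLike.norm_conj, norm_gamF, Complex.norm_real]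
    rw [Real.norm_of_nonneg (by positivity)]
    refine mul_le_mul_of_nonneg_right ?_ (norm_nonneg _)
    refine mul_le_of_le_one_right (by positivity) (Real.exp_le_one_iff.2 ?_)
    have := Real.pi_pos
    have : 0 ≤ Real.pi * a ^ 2 * ‖ξ - ζ‖ ^ 2 := by positivity
    linarith
  have hco : ∀ y, co a t h (y, ζ) = 𝓕 F (-y) := by
    intro y
    rw [co_eq' ha, ← Real.fourierInv_eq_fourier_neg, Real.fourierInv_eq']
    refine integral_congr_ae (Filter.Eventually.of_forall fun ξ => ?_)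
    simp only [hF, conj_gamF a t y ζ ξ, smul_eq_mul, mul_assoc]
  simp only [hco]
  have hm := R070.Cs145.memLp_fourier hF1 hF2
  have hi : Integrable (fun y => ‖𝓕 F y‖ ^ 2) :=
    (memLp_two_iff_integrable_sq_norm hm.aestronglyMeasurable).1 hm
  refine ⟨hi.comp_neg, ?_⟩
  rw [integral_neg_eq_self (fun y => ‖𝓕 F y‖ ^ 2), R070.Cs145.integral_norm_sq_fourier hF1 hF2,
    ← integral_const_mul]
  refine integral_congr_ae (Filter.Eventually.of_forall fun ξ => ?_)
  simp only [hF, norm_mul, RCLike.norm_conj, mul_pow, sq_norm_gamF, mul_assoc]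

theorem continuous_co {a : ℝ} (ha : 0 < a) (h : L2 d) :
    Continuous fun q : ℝ × Ph d => co a q.1 h q.2 := by
  have hpi := Real.pi_pos
  simp only [co_eq' ha]
  refine continuous_iff_continuousAt.2 fun q₀ => ?_
  have hb := ((memLp_gauss (d := d) (b := Real.pi * a ^ 2 / 2) (by positivity) q₀.2.2).const_mul
    ((2 * a ^ 2) ^ ((d : ℝ) / 4) * Real.exp (Real.pi * a ^ 2))).integrable_mul (Lp.memLp h).norm
  refine continuousAt_of_dominated (Filter.Eventually.of_forall fun q => ?_) ?_ hb ?_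
  · exact ((memLp_gamF' ha q.1 q.2).star.integrable_mul (Lp.memLp h)).aestronglyMeasurable
  · have hn : ∀ᶠ q : ℝ × Ph d in nhds q₀, ‖q.2.2 - q₀.2.2‖ < 1 := by
      have hc : Continuous fun q : ℝ × Ph d => ‖q.2.2 - q₀.2.2‖ := by fun_prop
      exact hc.continuousAt.eventually_lt continuousAt_const (by simp)
    filter_upwards [hn] with q hq
    refine Filter.Eventually.of_forall fun ξ => ?_
    simp only [norm_mul, RCLike.norm_conj, norm_gamF, Pi.mul_apply]
    refine mul_le_mul_of_nonneg_right ?_ (norm_nonneg _)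
    rw [mul_assoc _ (Real.exp _), ← Real.exp_add]
    refine mul_le_mul_of_nonneg_left (Real.exp_le_exp.2 ?_) (by positivity)
    have h1 : ‖ξ - q₀.2.2‖ ≤ ‖ξ - q.2.2‖ + ‖q.2.2 - q₀.2.2‖ := norm_sub_le_norm_sub_add_norm_sub _ _ _
    have h2 : ‖ξ - q₀.2.2‖ ^ 2 ≤ 2 * ‖ξ - q.2.2‖ ^ 2 + 2 := by
      have := norm_nonneg (ξ - q₀.2.2)
      have := norm_nonneg (ξ - q.2.2)
      have := norm_nonneg (q.2.2 - q₀.2.2)
      nlinarith [sq_nonneg (‖ξ - q.2.2‖ - 1)]
    have h3 : 0 < Real.pi * a ^ 2 := by positivity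
    nlinarith
  · refine Filter.Eventually.of_forall fun ξ => Continuous.continuousAt ?_
    refine Continuous.mul (Complex.continuous_conj.comp ?_) continuous_const
    unfold gamF
    fun_prop

theorem continuous_co' {a : ℝ} (ha : 0 < a) (t : ℝ) (h : L2 d) : Continuous (co a t h) :=
  (continuous_co ha h).comp (f := fun β : Ph d => ((t, β) : ℝ × Ph d)) (Continuous.prodMk_right t)

namespace Iso

lemma gauss_prod {a : ℝ} (ha : 0 < a) (h : L2 d) :
    Integrable (fun q : V d × V d =>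
      Real.exp (-2 * Real.pi * a ^ 2 * ‖q.2 - q.1‖ ^ 2) * ‖h q.2‖ ^ 2) (volume.prod volume) ∧
    ∀ ξ : V d, ∫ ζ : V d, Real.exp (-2 * Real.pi * a ^ 2 * ‖ξ - ζ‖ ^ 2) =
      ((2 * a ^ 2) ^ ((d : ℝ) / 2))⁻¹ := by
  have hpi := Real.pi_pos
  have hb : 0 < 2 * Real.pi * a ^ 2 := by positivity
  have e : ∀ v : V d, -2 * Real.pi * a ^ 2 * ‖v‖ ^ 2 = -(2 * Real.pi * a ^ 2) * ‖v‖ ^ 2 :=
    fun v => by ring
  have hint : ∀ ξ : V d, ∫ ζ : V d, Real.exp (-2 * Real.pi * a ^ 2 * ‖ξ - ζ‖ ^ 2) =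
      ((2 * a ^ 2) ^ ((d : ℝ) / 2))⁻¹ := by
    intro ξ
    simp only [e]
    rw [integral_sub_left_eq_self (fun v : V d => Real.exp (-(2 * Real.pi * a ^ 2) * ‖v‖ ^ 2)),
      integral_gauss hb, ← Real.inv_rpow (by positivity)]
    congr 1
    field_simp
  refine ⟨?_, hint⟩
  have hm : AEStronglyMeasurable (fun q : V d × V d =>
      Real.exp (-2 * Real.pi * a ^ 2 * ‖q.2 - q.1‖ ^ 2) * ‖h q.2‖ ^ 2)
      ((volume : Measure (V d)).prod volume) := by
    refine AEStronglyMeasurable.mul (Continuous.aestronglyMeasurable (by fun_prop)) ?_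
    exact (integrable_norm_sq_L2 h).aestronglyMeasurable.comp_snd
  rw [integrable_prod_iff' hm]
  constructor
  · refine Filter.Eventually.of_forall fun ξ => ?_
    simp only [e]
    exact ((integrable_gauss hb).comp_sub_left ξ).mul_const _
  · have : (fun ξ : V d => ∫ ζ : V d,
        ‖Real.exp (-2 * Real.pi * a ^ 2 * ‖ξ - ζ‖ ^ 2) * ‖h ξ‖ ^ 2‖) =
        fun ξ => ((2 * a ^ 2) ^ ((d : ℝ) / 2))⁻¹ * ‖h ξ‖ ^ 2 := by
      funext ξ
      rw [← hint ξ, ← integral_mul_const]
      refine integral_congr_ae (Filter.Eventually.of_forall fun ζ => ?_)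
      exact Real.norm_of_nonneg (by positivity)
    simp only [this]
    exact (integrable_norm_sq_L2 h).const_mul _

lemma integrable_co_sq {a : ℝ} (ha : 0 < a) (t : ℝ) (h : L2 d) :
    Integrable (fun β => ‖co a t h β‖ ^ 2) := by
  have hm : AEStronglyMeasurable (fun β => ‖co a t h β‖ ^ 2)
      ((volume : Measure (V d)).prod volume) :=
    ((continuous_co' ha t h).norm.pow 2).aestronglyMeasurable
  rw [Measure.volume_eq_prod, integrable_prod_iff' hm]
  refine ⟨Filter.Eventually.of_forall fun ζ => (integral_co_sq_fst ha t h ζ).1, ?_⟩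
  have : (fun ζ : V d => ∫ y : V d, ‖‖co a t h (y, ζ)‖ ^ 2‖) =
      fun ζ => (2 * a ^ 2) ^ ((d : ℝ) / 2) *
        ∫ ξ, Real.exp (-2 * Real.pi * a ^ 2 * ‖ξ - ζ‖ ^ 2) * ‖h ξ‖ ^ 2 := by
    funext ζ
    rw [← (integral_co_sq_fst ha t h ζ).2]
    refine integral_congr_ae (Filter.Eventually.of_forall fun y => ?_)
    exact Real.norm_of_nonneg (by positivity)
  simp only [this]
  exact (gauss_prod ha h).1.integral_prod_left.const_mul _

end Iso

theorem memLp_co {a : ℝ} (ha : 0 < a) (t : ℝ) (h : L2 d) : MemLp (co a t h) 2 volume :=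
  (memLp_two_iff_integrable_sq_norm (continuous_co' ha t h).aestronglyMeasurable).2
    (integrable_co_sq ha t h)

theorem integral_co_sq {a : ℝ} (ha : 0 < a) (t : ℝ) (h : L2 d) :
    ∫ β, ‖co a t h β‖ ^ 2 = ‖h‖ ^ 2 := by
  have h1 := integrable_co_sq ha t h
  rw [Measure.volume_eq_prod] at h1 ⊢
  rw [integral_prod_symm _ h1]
  simp only [(integral_co_sq_fst ha t h _).2]
  rw [integral_const_mul, integral_integral_swap (gauss_prod ha h).1]
  simp only [integral_mul_const, (gauss_prod ha h).2]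
  rw [integral_const_mul, integral_norm_sq_L2, mul_inv_cancel_left₀ (by positivity)]

namespace Iso

lemma co_add (a t : ℝ) (h h' : L2 d) : co a t (h + h') = co a t h + co a t h' := by
  funext β; simp [co, inner_add_right]

lemma co_smul (a t : ℝ) (c : ℂ) (h : L2 d) : co a t (c • h) = c • co a t h := by
  funext β; simp [co, inner_smul_right]

/-- the analysis map as a linear isometry -/
noncomputable def coL {a : ℝ} (ha : 0 < a) (t : ℝ) :
    L2 d →ₗᵢ[ℂ] Lp ℂ 2 (volume : Measure (Ph d)) where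
  toFun h := (memLp_co ha t h).toLp _
  map_add' h h' := by
    rw [← MemLp.toLp_add]
    exact MemLp.toLp_congr _ _ (by rw [co_add])
  map_smul' c h := by
    rw [RingHom.id_apply, ← MemLp.toLp_const_smul]
    exact MemLp.toLp_congr _ _ (by rw [co_smul])
  norm_map' h := by
    have h1 := integral_norm_sq_L2 ((memLp_co ha t h).toLp _)
    have h2 : ∫ β, ‖((memLp_co ha t h).toLp _ : Lp ℂ 2 (volume : Measure (Ph d))) β‖ ^ 2 =
        ∫ β, ‖co a t h β‖ ^ 2 := by
      refine integral_congr_ae ?_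
      filter_upwards [(memLp_co ha t h).coeFn_toLp] with β hβ
      rw [hβ]
    rw [h2, integral_co_sq ha] at h1
    exact (pow_left_inj₀ (norm_nonneg _) (norm_nonneg _) two_ne_zero).1 h1.symm

lemma coL_ae {a : ℝ} (ha : 0 < a) (t : ℝ) (h : L2 d) :
    (coL ha t h : Ph d → ℂ) =ᵐ[volume] co a t h := (memLp_co ha t h).coeFn_toLp

lemma inner_coL {a : ℝ} (ha : 0 < a) (t : ℝ) {c : Ph d → ℂ} (hc : MemLp c 2 volume) (φ : L2 d) :
    inner ℂ (coL ha t φ) (hc.toLp c) = ∫ β, inner ℂ φ (gam a t β) * c β := by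
  rw [L2.inner_def]
  refine integral_congr_ae ?_
  filter_upwards [coL_ae ha t φ, hc.coeFn_toLp] with β h1 h2
  rw [h1, h2, RCLike.inner_apply, co, inner_conj_symm, mul_comm]

lemma integrable_inner_mul {a : ℝ} (ha : 0 < a) (t : ℝ) {c : Ph d → ℂ} (hc : MemLp c 2 volume)
    (φ : L2 d) : Integrable fun β => inner ℂ φ (gam a t β) * c β := by
  have h1 : MemLp (fun β => (inner ℂ φ (gam a t β) : ℂ)) 2 (volume : Measure (Ph d)) := by
    have := (memLp_co ha t φ).star
    refine this.ae_eq (Filter.Eventually.of_forall fun β => ?_)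
    simp [co]
  exact h1.integrable_mul hc

end Iso

theorem integral_co_mul {a : ℝ} (ha : 0 < a) (t : ℝ) (h₁ h₂ : L2 d) :
    ∫ β, conj (co a t h₁ β) * co a t h₂ β = inner ℂ h₁ h₂ := by
  rw [← (coL ha t).inner_map_map h₁ h₂]
  change _ = inner ℂ (coL ha t h₁) ((memLp_co ha t h₂).toLp _)
  rw [inner_coL ha]
  simp only [co, inner_conj_symm]

theorem inner_syn {a : ℝ} (ha : 0 < a) (t : ℝ) {c : Ph d → ℂ} (hc : MemLp c 2 volume)
    (φ : L2 d) : inner ℂ φ (syn a t c) = ∫ β, inner ℂ φ (gam a t β) * c β := by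
  have hex : ∃ H : L2 d, ∀ φ : L2 d, inner ℂ φ H = ∫ β, inner ℂ φ (gam a t β) * c β := by
    refine ⟨ContinuousLinearMap.adjoint (coL ha t).toContinuousLinearMap (hc.toLp c), fun φ => ?_⟩
    rw [ContinuousLinearMap.adjoint_inner_right]
    exact inner_coL ha t hc φ
  exact Classical.epsilon_spec hex φ

theorem norm_syn_sq_le {a : ℝ} (ha : 0 < a) (t : ℝ) {c : Ph d → ℂ} (hc : MemLp c 2 volume) :
    ‖syn a t c‖ ^ 2 ≤ ∫ β, ‖c β‖ ^ 2 := by
  have h2 : ∫ β, ‖c β‖ ^ 2 = ‖hc.toLp c‖ ^ 2 := by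
    rw [← integral_norm_sq_L2]
    refine integral_congr_ae ?_
    filter_upwards [hc.coeFn_toLp] with β hβ
    rw [hβ]
  rw [h2]
  refine pow_le_pow_left₀ (norm_nonneg _) ?_ 2
  have h1 : ‖syn a t c‖ * ‖syn a t c‖ ≤ ‖syn a t c‖ * ‖hc.toLp c‖ := by
    have e := inner_syn ha t hc (syn a t c)
    rw [← inner_coL ha t hc] at e
    calc ‖syn a t c‖ * ‖syn a t c‖ = ‖(inner ℂ (syn a t c) (syn a t c) : ℂ)‖ := by
          rw [inner_self_eq_norm_sq_to_K]; simp [pow_two]
      _ ≤ ‖coL ha t (syn a t c)‖ * ‖hc.toLp c‖ := by rw [e]; exact norm_inner_le_norm _ _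
      _ = _ := by rw [LinearIsometry.norm_map]
  rcases (norm_nonneg (syn a t c)).eq_or_lt with h0 | h0
  · rw [← h0]; exact norm_nonneg _
  · exact le_of_mul_le_mul_left h1 h0

theorem syn_add {a : ℝ} (ha : 0 < a) (t : ℝ) {c c' : Ph d → ℂ} (hc : MemLp c 2 volume)
    (hc' : MemLp c' 2 volume) : syn a t (c + c') = syn a t c + syn a t c' := by
  refine ext_inner_left ℂ fun φ => ?_
  rw [inner_add_right, inner_syn ha t (hc.add hc'), inner_syn ha t hc, inner_syn ha t hc',
    ← integral_add (integrable_inner_mul ha t hc φ) (integrable_inner_mul ha t hc' φ)]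
  simp only [Pi.add_apply, mul_add]

theorem syn_zero {a : ℝ} (ha : 0 < a) (t : ℝ) : syn a t (0 : Ph d → ℂ) = 0 := by
  refine ext_inner_left ℂ fun φ => ?_
  rw [inner_syn ha t MemLp.zero]
  simp



theorem syn_sum {a : ℝ} (ha : 0 < a) (t : ℝ) {κ : Type*} (s : Finset κ) {c : κ → Ph d → ℂ}
    (hc : ∀ k ∈ s, MemLp (c k) 2 volume) :
    syn a t (∑ k ∈ s, c k) = ∑ k ∈ s, syn a t (c k) := by
  classical
  induction s using Finset.induction_on with
  | empty => simpa using syn_zero ha t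
  | insert k s hk ih =>
    have hs : ∀ j ∈ s, MemLp (c j) 2 volume := fun j hj => hc j (Finset.mem_insert_of_mem hj)
    rw [Finset.sum_insert hk, Finset.sum_insert hk,
      syn_add ha t (hc k (Finset.mem_insert_self _ _)) (memLp_finsetSum' s hs), ih hs]

theorem syn_co {a : ℝ} (ha : 0 < a) (t : ℝ) (h : L2 d) : syn a t (co a t h) = h := by
  refine ext_inner_left ℂ fun φ => ?_
  rw [inner_syn ha t (memLp_co ha t h), ← integral_co_mul ha t φ h]
  simp only [co, inner_conj_symm]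

theorem loc_univ {a : ℝ} (ha : 0 < a) (t : ℝ) (h : L2 d) : loc a t univ h = h := by
  rw [loc, indicator_univ, syn_co ha]

theorem memLp_indicator_co {a : ℝ} (ha : 0 < a) (t : ℝ) {A : Set (Ph d)} (hA : MeasurableSet A)
    (h : L2 d) : MemLp (A.indicator (co a t h)) 2 volume :=
  (memLp_co ha t h).indicator hA

theorem loc_union {a : ℝ} (ha : 0 < a) (t : ℝ) {A A' : Set (Ph d)} (hA : MeasurableSet A)
    (hA' : MeasurableSet A') (hd : Disjoint A A') (h : L2 d) :
    loc a t (A ∪ A') h = loc a t A h + loc a t A' h := by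
  rw [loc, loc, loc, ← syn_add ha t (memLp_indicator_co ha t hA h) (memLp_indicator_co ha t hA' h),
    indicator_union_of_disjoint hd]
  rfl

theorem loc_add {a : ℝ} (ha : 0 < a) (t : ℝ) {A : Set (Ph d)} (hA : MeasurableSet A)
    (h h' : L2 d) : loc a t A (h + h') = loc a t A h + loc a t A h' := by
  rw [loc, loc, loc, ← syn_add ha t (memLp_indicator_co ha t hA h) (memLp_indicator_co ha t hA h'),
    co_add, indicator_add']

theorem norm_loc_sq_le {a : ℝ} (ha : 0 < a) (t : ℝ) {A : Set (Ph d)} (hA : MeasurableSet A)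
    (h : L2 d) : ‖loc a t A h‖ ^ 2 ≤ ∫ β in A, ‖co a t h β‖ ^ 2 := by
  refine (norm_syn_sq_le ha t (memLp_indicator_co ha t hA h)).trans (le_of_eq ?_)
  rw [← integral_indicator hA]
  refine integral_congr_ae (Filter.Eventually.of_forall fun β => ?_)
  by_cases hβ : β ∈ A <;> simp [hβ]

theorem norm_loc_le {a : ℝ} (ha : 0 < a) (t : ℝ) {A : Set (Ph d)} (hA : MeasurableSet A)
    (h : L2 d) : ‖loc a t A h‖ ≤ ‖h‖ := by
  have h1 : ‖loc a t A h‖ ^ 2 ≤ ‖h‖ ^ 2 := by
    refine (norm_loc_sq_le ha t hA h).trans ?_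
    rw [← integral_co_sq ha t h]
    exact setIntegral_le_integral (integrable_co_sq ha t h)
      (Filter.Eventually.of_forall fun β => by positivity)
  exact (pow_le_pow_iff_left₀ (norm_nonneg _) (norm_nonneg _) two_ne_zero).1 h1

theorem inner_loc {a : ℝ} (ha : 0 < a) (t : ℝ) {A : Set (Ph d)} (hA : MeasurableSet A)
    (h φ : L2 d) :
    inner ℂ φ (loc a t A h) = ∫ β in A, inner ℂ φ (gam a t β) * co a t h β := by
  rw [loc, inner_syn ha t (memLp_indicator_co ha t hA h), ← integral_indicator hA]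
  refine integral_congr_ae (Filter.Eventually.of_forall fun β => ?_)
  by_cases hβ : β ∈ A <;> simp [hβ]

/-! ### towers -/

theorem tw_succ' {α : Type*} (op : ℕ → α → α) (i m : ℕ) (h : α) :
    tw op i (m + 1) h = tw op i m (op (i + m) h) := by
  induction m generalizing i with
  | zero => rfl
  | succ m ih =>
    rw [tw, ih (i + 1), tw]
    congr 3
    omega

theorem tw_congr {α : Type*} {op op' : ℕ → α → α} (i m : ℕ) (hop : ∀ j, i ≤ j → op j = op' j)
    (h : α) : tw op i m h = tw op' i m h := by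
  induction m generalizing i with
  | zero => rfl
  | succ m ih => rw [tw, tw, ih (i + 1) fun j hj => hop j (by omega), hop i le_rfl]

theorem tower_eq_loc (b : ℕ) (A : ℕ → ℤ → Set (Ph d)) {i M : ℕ} (hi : i ≤ M) (h : L2 d) (t : ℝ) :
    tower b A i M h t = lev b A t i (tower b A (i + 1) M h t) := by
  unfold tower
  rw [show M + 1 - i = (M + 1 - (i + 1)) + 1 by omega, tw]

theorem tower_top (b : ℕ) (A : ℕ → ℤ → Set (Ph d)) (M : ℕ) (h : L2 d) (t : ℝ) :
    tower b A (M + 1) M h t = h := by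
  unfold tower
  rw [Nat.sub_self, tw]

theorem win_eq_div (b : ℕ) {i j : ℕ} (hij : i ≤ j) (t : ℝ) :
    win b j t = win b i t / ((b ^ (2 * (j - i)) : ℕ) : ℤ) := by
  unfold win
  rw [← Int.floor_div_natCast, div_div]
  congr 2
  push_cast
  rw [← pow_add]
  congr 1
  omega

theorem win_of_win_eq {b : ℕ} (_hb : 1 ≤ b) {i j : ℕ} (hij : i ≤ j) {t t' : ℝ}
    (h : win b i t = win b i t') : win b j t = win b j t' := by
  rw [win_eq_div b hij, win_eq_div b hij, h]

theorem tower_congr {b : ℕ} (hb : 1 ≤ b) (A : ℕ → ℤ → Set (Ph d)) {i : ℕ} (M : ℕ) (h : L2 d)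
    {t t' : ℝ} (hw : win b i t = win b i t') : tower b A i M h t = tower b A i M h t' := by
  refine tw_congr _ _ (fun j hj => ?_) h
  unfold lev wt
  rw [win_of_win_eq hb hj hw]

theorem norm_tower_le {b : ℕ} (hb : 1 ≤ b) {A : ℕ → ℤ → Set (Ph d)}
    (hA : ∀ j k, MeasurableSet (A j k)) (i M : ℕ) (h : L2 d) (t : ℝ) :
    ‖tower b A i M h t‖ ≤ ‖h‖ := by
  unfold tower
  generalize M + 1 - i = m
  have hb' : (0 : ℝ) < b := by exact_mod_cast hb
  induction m generalizing i with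
  | zero => exact le_rfl
  | succ m ih =>
    rw [tw]
    exact (norm_loc_le (pow_pos hb' i) _ (hA _ _) _).trans (ih (i + 1))

end Crest.Agent.N76.G
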