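import Crest.Agent.N76.Red.Defs

/-! # Row 76 (S0101): Gaussian coherent states, towers, weighted configurations (helper16).

Phase space `Ph d` is the space of LINES: `β = (y, ζ)` is the line `s ↦ (pos s β, s)`,
`pos s β = y - 2 s ζ`.  `gam a t β` is the unit coherent state of width `a` at time `t` on the
line `β`; everything lives on the frequency side, `L2 d = L²(ℝ^d_ξ)`. -/

set_option autoImplicit false

open MeasureTheory Set Metric
open scoped ENNReal RealInnerProductSpace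

namespace Crest.Agent.N76.G

open Crest.Agent.N76.Red (V)

/-- phase space (lines): `(y, ζ)` = (position at time `0`, frequency) -/
abbrev Ph (d : ℕ) := V d × V d

/-- the Hilbert space `L²(ℝ^d)` (frequency side) -/
noncomputable abbrev L2 (d : ℕ) := Lp ℂ 2 (volume : Measure (V d))

variable {d : ℕ}

/-- position at time `t` of the line `β` -/
noncomputable def pos (t : ℝ) (β : Ph d) : V d := β.1 - (2 * t) • β.2

/-- `(2a²)^{d/4} exp(-π (a² + 2 i t) |ξ - ζ|²) e(-y·ξ)` -/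
noncomputable def gamF (a t : ℝ) (β : Ph d) (ξ : V d) : ℂ :=
  (((2 * a ^ 2) ^ ((d : ℝ) / 4) : ℝ) : ℂ) *
    Complex.exp (-(Real.pi : ℂ) * ((a : ℂ) ^ 2 + 2 * (t : ℂ) * Complex.I) * ((‖ξ - β.2‖ ^ 2 : ℝ) : ℂ)
      - 2 * (Real.pi : ℂ) * Complex.I * ((⟪β.1, ξ⟫ : ℝ) : ℂ))

open Classical in
/-- the coherent state as a vector of `L2 d` -/
noncomputable def gam (a t : ℝ) (β : Ph d) : L2 d :=
  if h : MemLp (gamF a t β) 2 (volume : Measure (V d)) then h.toLp _ else 0

/-- coefficient (analysis map): an honest function on phase space -/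
noncomputable def co (a t : ℝ) (h : L2 d) (β : Ph d) : ℂ := inner ℂ (gam a t β) h

/-- synthesis `∫ c(β) γ_β dβ` (weak sense; meaningful for `c ∈ L²`) -/
noncomputable def syn (a t : ℝ) (c : Ph d → ℂ) : L2 d :=
  Classical.epsilon fun H : L2 d =>
    ∀ φ : L2 d, inner ℂ φ H = ∫ β, inner ℂ φ (gam a t β) * c β

/-- localisation to a set of lines -/
noncomputable def loc (a t : ℝ) (A : Set (Ph d)) (h : L2 d) : L2 d :=
  syn a t (A.indicator (co a t h))

/-- `|Σ|²`, `Σ = a² + a'² + 2 i (t' - t)` -/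
noncomputable def sig (a t a' t' : ℝ) : ℝ := (a ^ 2 + a' ^ 2) ^ 2 + 4 * (t - t') ^ 2

/-- the positive quadratic form in the overlap of two coherent states -/
noncomputable def Qf (a t a' t' : ℝ) (Δ : Ph d) : ℝ :=
  (a' ^ 2 * ‖pos t Δ‖ ^ 2 + a ^ 2 * ‖pos t' Δ‖ ^ 2 + a ^ 2 * a' ^ 2 * (a ^ 2 + a' ^ 2) * ‖Δ.2‖ ^ 2)
    / sig a t a' t'

/-- the prefactor in the overlap: `‖⟪γ,γ'⟫‖ = pre * exp (-π Qf)` -/
noncomputable def pre (d : ℕ) (a t a' t' : ℝ) : ℝ :=
  (4 * a ^ 2 * a' ^ 2 / sig a t a' t') ^ ((d : ℝ) / 4)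

/-- evaluation vector at a space-time point: `⟪pt z, H⟫ = 2^{d/4} ext (e^{-π|ξ|²} H) z` -/
noncomputable def pt (z : V d × ℝ) : L2 d := gam 1 z.2 (z.1, 0)

/-! ### weighted finite configurations `(X, p, w)` -/

open Classical in
/-- mass of a set -/
noncomputable def ms {ι α : Type*} (X : Finset ι) (p : ι → α) (w : ι → ℝ) (E : Set α) : ℝ :=
  ∑ i ∈ X.filter (fun i => p i ∈ E), w i

/-- energy of a field (`H i` may depend on the point, as for towers) -/
noncomputable def En {ι : Type*} (X : Finset ι) (p : ι → V d × ℝ) (w : ι → ℝ)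
    (H : ι → L2 d) : ℝ :=
  ∑ i ∈ X, w i * ‖inner ℂ (pt (p i)) (H i)‖ ^ 2

/-- `X` is covered by at most `N` closed balls of radius `r` -/
def Cov {ι α : Type*} [PseudoMetricSpace α] (X : Finset ι) (p : ι → α) (r N : ℝ) : Prop :=
  ∃ F : Finset α, (F.card : ℝ) ≤ N ∧ ∀ i ∈ X, ∃ c ∈ F, dist (p i) c ≤ r

/-! ### towers -/

/-- index of the level `j` time window (length `b^(2j)`) containing `t` -/
noncomputable def win (b j : ℕ) (t : ℝ) : ℤ := ⌊t / (b : ℝ) ^ (2 * j)⌋

/-- left end point of that window -/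
noncomputable def wt (b j : ℕ) (t : ℝ) : ℝ := (win b j t : ℝ) * (b : ℝ) ^ (2 * j)

/-- `tw op i m = op i ∘ op (i+1) ∘ ⋯ ∘ op (i+m-1)` -/
def tw {α : Type*} (op : ℕ → α → α) : ℕ → ℕ → α → α
  | _, 0, h => h
  | i, m + 1, h => op i (tw op (i + 1) m h)

/-- the level `j` localisation seen from time `t` -/
noncomputable def lev (b : ℕ) (A : ℕ → ℤ → Set (Ph d)) (t : ℝ) (j : ℕ) : L2 d → L2 d :=
  loc ((b : ℝ) ^ j) (wt b j t) (A j (win b j t))

/-- the tower with levels `i, …, M`, seen from time `t` (it is `h` for `i = M + 1`) -/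
noncomputable def tower (b : ℕ) (A : ℕ → ℤ → Set (Ph d)) (i M : ℕ) (h : L2 d) (t : ℝ) : L2 d :=
  tw (lev b A t) i (M + 1 - i) h

end Crest.Agent.N76.G
private theorem rz_b32e92a9bf : type_of% @_root_.Crest.Agent.N76.G.tw.eq_def := @_root_.Crest.Agent.N76.G.tw.eq_def -- L92
private theorem rz_0d52c714e0 : type_of% @_root_.Crest.Agent.N76.G.tw.eq_1 := @_root_.Crest.Agent.N76.G.tw.eq_1 -- L92
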